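import Vale.Agent.P359.Mom.LadderTwo.Ops

/-!
# P359: lowest vectors of the pair-plus-two channels and their chains
-/

noncomputable section

open Finset

namespace Vale.Agent.P359.Mom.Two

variable {Q : ℕ}

lemma lo2_smul (c : ℝ) (f : J2 → ℝ) : lo2 (c • f) = c • lo2 f := by
  funext p; simp only [lo2, Pi.smul_apply, smul_eq_mul]; ring

lemma lo2_sum {ι : Type*} (S : Finset ι) (f : ι → J2 → ℝ) :
    lo2 (∑ i ∈ S, f i) = ∑ i ∈ S, lo2 (f i) := by
  funext p
  simp only [lo2, Finset.sum_apply, mul_sum, sum_add_distrib]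

lemma lo2_sub (f g : J2 → ℝ) : lo2 (f - g) = lo2 f - lo2 g := by
  funext p; simp only [lo2, Pi.sub_apply]; ring

lemma up2_zero : up2 Q (0 : J2 → ℝ) = 0 := by funext p; simp [up2]

lemma low2_val (u : ℕ × ℕ) (s a b : ℕ) : low2 u (s, a, b) =
    if 1 ≤ s ∧ s + a + b = u.1 + u.2 + 1 then
      (-1) ^ (s - 1) * (u.1.choose a : ℝ) * (u.2.choose b : ℝ) else 0 := by
  unfold low2
  by_cases ha : a ≤ u.1
  · by_cases hb : b ≤ u.2
    · simp [ha, hb]
    · simp [ha, hb, Nat.choose_eq_zero_of_lt (not_le.1 hb)]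
  · simp [ha, Nat.choose_eq_zero_of_lt (not_le.1 ha)]

lemma lo2_low2 (u : ℕ × ℕ) : lo2 (low2 u) = 0 := by
  funext ⟨s, a, b⟩
  show (s : ℝ) * low2 u (s + 1, a, b) + ((a : ℝ) + 1) * low2 u (s, a + 1, b)
    + ((b : ℝ) + 1) * low2 u (s, a, b + 1) = 0
  rw [low2_val, low2_val, low2_val]
  rcases s with _ | k
  · simp
  by_cases h : k + 1 + a + b = u.1 + u.2
  · rw [if_pos ⟨by omega, by omega⟩, if_pos ⟨by omega, by omega⟩, if_pos ⟨by omega, by omega⟩,
      Nat.add_sub_cancel, Nat.add_sub_cancel, pow_succ]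
    have ha : (u.1.choose (a + 1) : ℝ) * ((a : ℝ) + 1)
        = (u.1.choose a : ℝ) * ((u.1 : ℝ) - a) := by
      rcases le_or_gt a u.1 with hl | hl
      · rw [← Nat.cast_sub hl]
        exact_mod_cast Nat.choose_succ_right_eq u.1 a
      · simp [Nat.choose_eq_zero_of_lt hl,
          Nat.choose_eq_zero_of_lt (show u.1 < a + 1 by omega)]
    have hb : (u.2.choose (b + 1) : ℝ) * ((b : ℝ) + 1)
        = (u.2.choose b : ℝ) * ((u.2 : ℝ) - b) := by
      rcases le_or_gt b u.2 with hl | hl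
      · rw [← Nat.cast_sub hl]
        exact_mod_cast Nat.choose_succ_right_eq u.2 b
      · simp [Nat.choose_eq_zero_of_lt hl,
          Nat.choose_eq_zero_of_lt (show u.2 < b + 1 by omega)]
    have hs : ((k : ℝ) + 1) + a + b = u.1 + u.2 := by exact_mod_cast h
    push_cast
    linear_combination ((-1 : ℝ) ^ k * (u.2.choose b : ℝ)) * ha
      + ((-1 : ℝ) ^ k * (u.1.choose a : ℝ)) * hb
      - ((-1 : ℝ) ^ k * (u.1.choose a : ℝ) * (u.2.choose b : ℝ)) * hs
  · rw [if_neg (fun hc => h (by omega)), if_neg (fun hc => h (by omega)),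
      if_neg (fun hc => h (by omega))]
    simp

lemma low2_one {L : ℕ} {u v : ℕ × ℕ} (hu : u ∈ pairs L) (hv : v ∈ pairs L) :
    low2 u (1, v.1, v.2) = if u = v then 1 else 0 := by
  simp only [pairs, HasAntidiagonal.mem_antidiagonal] at hu hv
  rw [low2_val, if_pos ⟨le_rfl, by omega⟩]
  by_cases h : u = v
  · subst h; simp
  · rw [if_neg h]
    have hne : u.1 < v.1 ∨ u.2 < v.2 := by
      by_contra hc
      exact h (Prod.ext (by omega) (by omega))
    rcases hne with h1 | h1 <;> simp [Nat.choose_eq_zero_of_lt h1]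

lemma homog_low2 {L : ℕ} {u : ℕ × ℕ} (hu : u ∈ pairs L) : Homog (L + 1) (low2 u) := by
  simp only [pairs, HasAntidiagonal.mem_antidiagonal] at hu
  rintro ⟨s, a, b⟩ hp
  simp only [grade2] at hp
  rw [low2_val, if_neg (fun h => hp (by omega))]

lemma supp_low2 {L : ℕ} (hL : L < Q) {u : ℕ × ℕ} (hu : u ∈ pairs L) : Supp Q (low2 u) := by
  simp only [pairs, HasAntidiagonal.mem_antidiagonal] at hu
  rintro ⟨s, a, b⟩ hp
  simp only [Out] at hp
  rw [low2_val]
  split_ifs with h
  · rcases (show u.1 < a ∨ u.2 < b ∨ s = 0 ∨ 2 * Q ≤ s by omega) with h1 | h1 | h1 | h1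
    · simp [Nat.choose_eq_zero_of_lt h1]
    · simp [Nat.choose_eq_zero_of_lt h1]
    · omega
    · omega
  · rfl

/-- A function killed by lowering is determined by its values at `s = 1`. -/
lemma lw_ext {f : J2 → ℝ} (h0 : ∀ a b, f (0, a, b) = 0) (hlo : lo2 f = 0)
    (h1 : ∀ a b, f (1, a, b) = 0) : f = 0 := by
  have key : ∀ s a b, f (s, a, b) = 0 := by
    intro s
    induction s with
    | zero => exact h0
    | succ s ih =>
        intro a b
        rcases s with _ | k
        · exact h1 a b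
        have h := congrFun hlo (k + 1, a, b)
        simp only [lo2, ih, mul_zero, add_zero, Pi.zero_apply] at h
        exact (mul_eq_zero.1 h).resolve_left (by positivity)
  funext ⟨s, a, b⟩
  exact key s a b

/-- The lowest vectors span the kernel of lowering in their grade. -/
lemma lw_expand {L : ℕ} {f : J2 → ℝ} (hf : Homog (L + 1) f)
    (h0 : ∀ a b, f (0, a, b) = 0) (hlo : lo2 f = 0) :
    f = ∑ v ∈ pairs L, f (1, v.1, v.2) • low2 v := by
  refine sub_eq_zero.1 (lw_ext (fun a b => ?_) ?_ (fun a b => ?_))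
  · simp [Finset.sum_apply, h0, low2_val]
  · rw [lo2_sub, hlo, lo2_sum, sum_eq_zero fun v _ => by rw [lo2_smul, lo2_low2, smul_zero],
      sub_zero]
  · simp only [Pi.sub_apply, Finset.sum_apply, Pi.smul_apply, smul_eq_mul]
    by_cases h : a + b = L
    · have hab : (a, b) ∈ pairs L := by simpa [pairs, HasAntidiagonal.mem_antidiagonal] using h
      rw [sum_eq_single_of_mem _ hab fun v hv hne => by
        rw [show low2 v (1, a, b) = 0 from (low2_one hv hab).trans (if_neg hne), mul_zero],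
        low2_one hab hab, if_pos rfl, mul_one, sub_self]
    · rw [hf _ (by simp only [grade2]; omega), sum_eq_zero fun v hv => by
        rw [homog_low2 hv _ (by simp only [grade2]; omega), mul_zero], sub_zero]

lemma vec2_succ (Q : ℕ) (u : ℕ × ℕ) (t : ℕ) : vec2 Q u (t + 1) = up2 Q (vec2 Q u t) := by
  rw [vec2, Function.iterate_succ_apply']; rfl

lemma vec2_zero (Q : ℕ) (u : ℕ × ℕ) : vec2 Q u 0 = low2 u := rfl

lemma supp_vec2 (hQ : 1 ≤ Q) {L : ℕ} (hL : L < Q) {u : ℕ × ℕ} (hu : u ∈ pairs L) :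
    ∀ t, Supp Q (vec2 Q u t)
  | 0 => supp_low2 hL hu
  | t + 1 => by rw [vec2_succ]; exact supp_up hQ (supp_vec2 hQ hL hu t)

lemma homog_vec2 {L : ℕ} {u : ℕ × ℕ} (hu : u ∈ pairs L) :
    ∀ t, Homog (L + 1 + t) (vec2 Q u t)
  | 0 => homog_low2 hu
  | t + 1 => by rw [vec2_succ, ← add_assoc]; exact homog_up (homog_vec2 hu t)

/-- Factor of one lowering step. -/
def step (Q L t : ℕ) : ℝ := ((t : ℝ) + 1) * ((spin2 Q L : ℝ) - t) / Q

lemma lad_succ (Q L t : ℕ) :
    lad Q (spin2 Q L) (t + 1) = lad Q (spin2 Q L) t * step Q L t := prod_range_succ _ _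

lemma lo_vec2 (hQ : 1 ≤ Q) {L : ℕ} (hL : L < Q) {u : ℕ × ℕ} (hu : u ∈ pairs L) :
    ∀ t, lo2 (vec2 Q u (t + 1)) = step Q L t • vec2 Q u t := by
  have hd : (spin2 Q L : ℝ) = 4 * Q - 2 - 2 * L := by
    rw [spin2, Nat.cast_sub (by omega), Nat.cast_sub (by omega)]
    push_cast
    ring
  intro t
  induction t with
  | zero =>
      rw [vec2_succ, lo_up_homog (supp_vec2 hQ hL hu 0) (homog_vec2 hu 0), vec2_zero, lo2_low2,
        up2_zero, zero_add]
      congr 1
      rw [step, hd]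
      push_cast
      ring
  | succ t ih =>
      rw [vec2_succ Q u (t + 1),
        lo_up_homog (supp_vec2 hQ hL hu (t + 1)) (homog_vec2 hu (t + 1)), ih, up2_smul,
        ← vec2_succ, ← add_smul]
      congr 1
      rw [step, step, hd]
      push_cast
      ring

/-- Gram matrix of the lowest vectors. -/
def gram (Q : ℕ) (u v : ℕ × ℕ) : ℝ := ip2 Q (low2 u) (low2 v)

/-- The chains are orthogonal. -/
lemma ip_vec2 (hQ : 1 ≤ Q) {L : ℕ} (hL : L < Q) {u v : ℕ × ℕ} (hu : u ∈ pairs L)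
    (hv : v ∈ pairs L) : ∀ t s, ip2 Q (vec2 Q u t) (vec2 Q v s)
      = if t = s then lad Q (spin2 Q L) t * gram Q u v else 0
  | 0, 0 => by simp [gram, lad, vec2_zero]
  | 0, s + 1 => by
      rw [ip2_comm, vec2_succ, ip2_up hQ _ (supp_vec2 hQ hL hu 0), vec2_zero, lo2_low2]
      simp [ip2]
  | t + 1, s => by
      rw [vec2_succ, ip2_up hQ _ (supp_vec2 hQ hL hv s)]
      rcases s with _ | s
      · rw [vec2_zero, lo2_low2]
        simp [ip2]
      · rw [lo_vec2 hQ hL hv s, ip2_smul_right, ip_vec2 hQ hL hu hv t s]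
        by_cases h : t = s
        · subst h
          rw [if_pos rfl, if_pos rfl, lad_succ]
          ring
        · rw [if_neg h, if_neg (by omega), mul_zero]

lemma gram_comm (u v : ℕ × ℕ) : gram Q u v = gram Q v u := ip2_comm _ _

/-- The Gram matrix is injective. -/
lemma gram_injective (hQ : 1 ≤ Q) {L : ℕ} (hL : L < Q) {c : ℕ × ℕ → ℝ}
    (h : ∀ v ∈ pairs L, ∑ u ∈ pairs L, c u * gram Q u v = 0) : ∀ u ∈ pairs L, c u = 0 := by
  set f := ∑ u ∈ pairs L, c u • low2 u with hf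
  have hfs : Supp Q f := fun p hp => by
    simp only [hf, Finset.sum_apply, Pi.smul_apply, smul_eq_mul]
    exact sum_eq_zero fun u hu => by rw [supp_low2 hL hu p hp, mul_zero]
  have h0 : ip2 Q f f = 0 := by
    conv_lhs => arg 3; rw [hf]
    rw [ip2_sum_right]
    refine sum_eq_zero fun v hv => ?_
    rw [ip2_smul_right, ip2_comm, hf, ip2_sum_right]
    simp only [ip2_smul_right]
    rw [sum_congr rfl fun u _ => by rw [← gram, gram_comm v u], h v hv, mul_zero]
  intro w hw
  have := congrFun (eq_zero_of_ip2 hQ hfs h0) (1, w.1, w.2)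
  simp only [hf, Finset.sum_apply, Pi.smul_apply, smul_eq_mul, Pi.zero_apply] at this
  rwa [sum_eq_single_of_mem w hw fun u hu hne => by rw [low2_one hu hw, if_neg hne, mul_zero],
    low2_one hw hw, if_pos rfl, mul_one] at this

/-- The Gram matrix is surjective. -/
lemma gram_surjective (hQ : 1 ≤ Q) {L : ℕ} (hL : L < Q) (r : ℕ × ℕ → ℝ) :
    ∃ c : ℕ × ℕ → ℝ, ∀ v ∈ pairs L, ∑ u ∈ pairs L, c u * gram Q u v = r v := by
  classical
  set T : ({x // x ∈ pairs L} → ℝ) →ₗ[ℝ] ({x // x ∈ pairs L} → ℝ) :=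
    { toFun := fun c v => ∑ u, c u * gram Q u.1 v.1
      map_add' := fun a b => by funext v; simp [add_mul, sum_add_distrib]
      map_smul' := fun k a => by funext v; simp [mul_assoc, mul_sum] } with hT
  set ext : ({x // x ∈ pairs L} → ℝ) → ℕ × ℕ → ℝ :=
    fun c u => if h : u ∈ pairs L then c ⟨u, h⟩ else 0 with hext
  have heq : ∀ (c : {x // x ∈ pairs L} → ℝ) (v : {x // x ∈ pairs L}),
      ∑ u ∈ pairs L, ext c u * gram Q u v.1 = T c v := by
    intro c v
    rw [← sum_coe_sort (pairs L) fun u => ext c u * gram Q u v.1]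
    refine sum_congr rfl fun u _ => ?_
    simp [hext, u.2]
  have hinj : Function.Injective T := by
    rw [← LinearMap.ker_eq_bot, LinearMap.ker_eq_bot']
    intro c hc
    funext u
    have := gram_injective hQ hL (c := ext c) (fun v hv => by
      rw [heq c ⟨v, hv⟩, hc]; rfl) u.1 u.2
    simpa [hext, u.2] using this
  obtain ⟨c, hc⟩ := LinearMap.injective_iff_surjective.1 hinj fun v => r v.1
  exact ⟨ext c, fun v hv => by rw [heq c ⟨v, hv⟩, hc]⟩

end Vale.Agent.P359.Mom.Two
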