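import Vale.Agent.P359.Mom.LadderTwo.Chains

/-!
# P359: the disjoint-pair form is invariant under the ladder
-/

noncomputable section

open Finset

namespace Vale.Agent.P359.Mom.Two

variable {Q : ℕ}

/-- Contraction of the two orbital slots along the pair vector of sum `t`. -/
def kap (f : J2 → ℝ) (s t : ℕ) : ℝ :=
  ∑ p ∈ antidiagonal t, ((p.2 : ℝ) - p.1) * f (s, p.1, p.2)

/-- The form of two disjoint pairs on functions. -/
def bil (Q : ℕ) (f g : J2 → ℝ) : ℝ :=
  ∑ s ∈ I0 Q, ∑ t ∈ I0 Q, kap f s t * kap g s t / (pn Q s * pn Q t)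

lemma kap_range (f : J2 → ℝ) (s t : ℕ) :
    ∑ c ∈ range (t + 1), (((t - c : ℕ) : ℝ) - c) * f (s, c, t - c) = kap f s t :=
  (Nat.sum_antidiagonal_eq_sum_range_succ (fun c d => ((d : ℝ) - c) * f (s, c, d)) t).symm

lemma kap_top {g : J2 → ℝ} (hg : Supp Q g) (s : ℕ) : kap g s (2 * Q) = 0 := by
  refine sum_eq_zero fun p hp => ?_
  simp only [HasAntidiagonal.mem_antidiagonal] at hp
  by_cases h : p.1 = Q ∧ p.2 = Q
  · rw [h.1, h.2, sub_self, zero_mul]
  · rw [hg _ (by simp only [Out]; omega), mul_zero]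

lemma kap_out {g : J2 → ℝ} (hg : Supp Q g) (t : ℕ) : kap g (2 * Q) t = 0 :=
  sum_eq_zero fun _ _ => by rw [hg _ (Or.inr (Or.inl le_rfl)), mul_zero]

lemma kap_lo (g : J2 → ℝ) (s t : ℕ) :
    kap (lo2 g) s t = s * kap g (s + 1) t + t * kap g s (t + 1) := by
  have e : kap (lo2 g) s t = (s : ℝ) * kap g (s + 1) t
      + (∑ p ∈ antidiagonal t, ((p.2 : ℝ) - p.1) * (((p.1 : ℝ) + 1) * g (s, p.1 + 1, p.2))
        + ∑ p ∈ antidiagonal t, ((p.2 : ℝ) - p.1) * (((p.2 : ℝ) + 1) * g (s, p.1, p.2 + 1))) := by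
    simp only [kap, lo2, mul_add, sum_add_distrib, mul_sum]
    rw [add_assoc]
    congr 1
    exact sum_congr rfl fun p _ => by ring
  have hA : ∑ p ∈ antidiagonal t, ((p.2 : ℝ) - p.1) * (((p.1 : ℝ) + 1) * g (s, p.1 + 1, p.2))
      = ∑ p ∈ antidiagonal (t + 1), ((p.2 : ℝ) - p.1 + 1) * ((p.1 : ℝ) * g (s, p.1, p.2)) := by
    conv_rhs => rw [Nat.sum_antidiagonal_succ]
    simp only [Nat.cast_zero, zero_mul, mul_zero, zero_add]
    exact sum_congr rfl fun p _ => by push_cast; ring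
  have hB : ∑ p ∈ antidiagonal t, ((p.2 : ℝ) - p.1) * (((p.2 : ℝ) + 1) * g (s, p.1, p.2 + 1))
      = ∑ p ∈ antidiagonal (t + 1), ((p.2 : ℝ) - 1 - p.1) * ((p.2 : ℝ) * g (s, p.1, p.2)) := by
    conv_rhs => rw [Nat.sum_antidiagonal_succ']
    simp only [Nat.cast_zero, zero_mul, mul_zero, zero_add]
    exact sum_congr rfl fun p _ => by push_cast; ring
  rw [e, hA, hB, ← sum_add_distrib]
  congr 1
  rw [kap, mul_sum]
  refine sum_congr rfl fun p hp => ?_
  simp only [HasAntidiagonal.mem_antidiagonal] at hp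
  have h : (t : ℝ) = (p.1 : ℝ) + p.2 - 1 := by
    have : ((p.1 : ℝ) + p.2) = (t : ℝ) + 1 := by exact_mod_cast hp
    linarith
  rw [h]
  ring

lemma kap_up (hQ : 1 ≤ Q) {f : J2 → ℝ} (hf : Supp Q f) (s t : ℕ) :
    kap (up2 Q f) s t = uR Q s * kap f (s - 1) t + uR Q t * kap f s (t - 1) := by
  have e : kap (up2 Q f) s t = uR Q s * kap f (s - 1) t
      + (∑ p ∈ antidiagonal t, ((p.2 : ℝ) - p.1) * (uO Q p.1 * f (s, p.1 - 1, p.2))
        + ∑ p ∈ antidiagonal t, ((p.2 : ℝ) - p.1) * (uO Q p.2 * f (s, p.1, p.2 - 1))) := by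
    simp only [kap, up2, mul_add, sum_add_distrib, mul_sum]
    rw [add_assoc]
    congr 1
    exact sum_congr rfl fun p _ => by ring
  rw [e]
  congr 1
  rcases t with _ | t
  · simp [uR, uO]
  rw [Nat.sum_antidiagonal_succ, Nat.sum_antidiagonal_succ', kap, mul_sum, Nat.add_sub_cancel]
  simp only [Nat.add_sub_cancel, show uO Q 0 = 0 by simp [uO], zero_mul, mul_zero, zero_add,
    ← sum_add_distrib]
  refine sum_congr rfl fun p hp => ?_
  simp only [HasAntidiagonal.mem_antidiagonal] at hp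
  by_cases ho : Out Q (s, p.1, p.2)
  · simp [hf _ ho]
  simp only [Out, not_or, not_le, not_lt] at ho
  rw [uO, uO, if_pos (by omega), if_pos (by omega), show Q + 1 - (p.1 + 1) = Q - p.1 by omega,
    show Q + 1 - (p.2 + 1) = Q - p.2 by omega, Nat.cast_sub ho.2.2.1, Nat.cast_sub ho.2.2.2]
  have hQ0 : (Q : ℝ) ≠ 0 := Nat.cast_ne_zero.2 (by omega)
  by_cases ht : 2 ≤ t + 1
  · rw [uR, if_pos ht]
    by_cases htop : t + 1 ≤ 2 * Q
    · rw [Nat.cast_sub htop]
      have h : (t : ℝ) = p.1 + p.2 := by exact_mod_cast hp.symm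
      push_cast
      rw [h]
      field_simp
      ring
    · have h1 : p.1 = Q := by omega
      have h2 : p.2 = Q := by omega
      simp [h1, h2]
  · have h1 : p.1 = 0 := by omega
    have h2 : p.2 = 0 := by omega
    simp [uR, ht, h1, h2]

/-- The ladders are adjoint for the disjoint-pair form. -/
lemma bil_up (hQ : 1 ≤ Q) {f g : J2 → ℝ} (hf : Supp Q f) (hg : Supp Q g) :
    bil Q (up2 Q f) g = bil Q f (lo2 g) := by
  have e1 : ∀ A B G m : ℝ, (A + B) * G / m = A * G / m + B * G / m := fun A B G m => by ring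
  have e2 : ∀ F A B m : ℝ, F * (A + B) / m = F * A / m + F * B / m := fun F A B m => by ring
  simp only [bil, I0, kap_up hQ hf, kap_lo, e1, e2, sum_add_distrib]
  congr 1
  · conv_lhs => rw [sum_comm]
    conv_rhs => rw [sum_comm]
    refine sum_congr rfl fun t _ => ?_
    have h := shift (2 * Q) (uR Q) (fun s => (s : ℝ)) (pn Q)
      (fun s => kap f s t) (fun s => kap g s t) (by simp [uR])
      (kap_out hg t) (fun s hs => uR_ratio hQ s hs)
    simpa only [← div_div, ← sum_div] using congrArg (fun z => z / pn Q t) h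
  · refine sum_congr rfl fun s _ => ?_
    have h := shift (2 * Q) (uR Q) (fun t => (t : ℝ)) (pn Q)
      (fun t => kap f s t) (fun t => kap g s t) (by simp [uR])
      (kap_top hg s) (fun t ht => uR_ratio hQ t ht)
    have hd : ∀ X A B : ℝ, X / (A * B) = X / B / A := fun X A B => by ring
    simpa only [hd, ← sum_div] using congrArg (fun z => z / pn Q s) h

lemma bil_smul_right (c : ℝ) (f g : J2 → ℝ) : bil Q f (c • g) = c * bil Q f g := by
  have : ∀ s t, kap (c • g) s t = c * kap g s t := fun s t => by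
    simp only [kap, Pi.smul_apply, smul_eq_mul, mul_sum]
    exact sum_congr rfl fun p _ => by ring
  simp only [bil, this, mul_sum]
  exact sum_congr rfl fun s _ => sum_congr rfl fun t _ => by ring

lemma bil_vec2 (hQ : 1 ≤ Q) {L : ℕ} (hL : L < Q) {u v : ℕ × ℕ} (hu : u ∈ pairs L)
    (hv : v ∈ pairs L) : ∀ t, bil Q (vec2 Q u t) (vec2 Q v t)
      = lad Q (spin2 Q L) t * bil Q (low2 u) (low2 v)
  | 0 => by simp [lad, vec2_zero]
  | t + 1 => by
      conv_lhs => arg 2; rw [vec2_succ]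
      rw [bil_up hQ (supp_vec2 hQ hL hu t) (supp_vec2 hQ hL hv (t + 1)), lo_vec2 hQ hL hv t,
        bil_smul_right, bil_vec2 hQ hL hu hv t, lad_succ]
      ring

end Vale.Agent.P359.Mom.Two
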