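import Vale.Agent.P359.Mom.Three
import Vale.Agent.P359.Mom.Model.Basic

/-!
# P359: the ladder on pair-plus-two functions
-/

noncomputable section

open Finset

namespace Vale.Agent.P359.Mom.Two

open Sphere

variable {Q : ℕ}

/-- Outside the range of the three slots. -/
def Out (Q : ℕ) (p : J2) : Prop := p.1 = 0 ∨ 2 * Q ≤ p.1 ∨ Q < p.2.1 ∨ Q < p.2.2

/-- Supported in range. -/
def Supp (Q : ℕ) (f : J2 → ℝ) : Prop := ∀ p, Out Q p → f p = 0

/-- Supported on one grade. -/
def Homog (g : ℕ) (f : J2 → ℝ) : Prop := ∀ p, grade2 p ≠ g → f p = 0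

/-- The metric in which the two ladders are adjoint. -/
def mu (Q : ℕ) (p : J2) : ℝ := pn Q p.1 * cw Q p.2.1 * cw Q p.2.2

def ip2 (Q : ℕ) (f g : J2 → ℝ) : ℝ := ∑ p ∈ I2 Q, f p * g p / mu Q p

lemma mem_I2 {p : J2} (h : ¬Out Q p) : p ∈ I2 Q := by
  simp only [Out, not_or, not_le, not_lt] at h
  simp only [I2, mem_product, mem_range]
  omega

lemma out_of_not_mem {p : J2} (h : p ∉ I2 Q) : Out Q p := by
  by_contra hc
  exact h (mem_I2 hc)

lemma pn_zero (Q : ℕ) : pn Q 0 = 0 := by simp [pn]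

lemma pn_pos (hQ : 1 ≤ Q) {s : ℕ} (h1 : 1 ≤ s) (h2 : s < 2 * Q) : 0 < pn Q s := by
  obtain ⟨i, rfl⟩ : ∃ i, s = i + 1 := ⟨s - 1, by omega⟩
  rw [pn_eq Q i hQ, cP]
  have hc : (0 : ℝ) < ((2 * Q - 2).choose i : ℕ) := by
    exact_mod_cast Nat.choose_pos (by omega)
  have hq : (0 : ℝ) < (Q : ℝ) ^ i := pow_pos (Nat.cast_pos.2 hQ) _
  positivity

lemma mu_pos (hQ : 1 ≤ Q) {p : J2} (h : ¬Out Q p) : 0 < mu Q p := by
  simp only [Out, not_or, not_le, not_lt] at h
  exact mul_pos (mul_pos (pn_pos hQ (by omega) h.2.1) (cw_pos hQ h.2.2.1)) (cw_pos hQ h.2.2.2)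

lemma ip2_comm (f g : J2 → ℝ) : ip2 Q f g = ip2 Q g f := by simp only [ip2, mul_comm (f _)]

lemma ip2_add_right (f g h : J2 → ℝ) : ip2 Q f (g + h) = ip2 Q f g + ip2 Q f h := by
  simp only [ip2, Pi.add_apply, mul_add, add_div, sum_add_distrib]

lemma ip2_smul_right (c : ℝ) (f g : J2 → ℝ) : ip2 Q f (c • g) = c * ip2 Q f g := by
  simp only [ip2, Pi.smul_apply, smul_eq_mul, mul_sum]
  exact sum_congr rfl fun p _ => by ring

lemma ip2_sum_right {ι : Type*} (S : Finset ι) (f : J2 → ℝ) (g : ι → J2 → ℝ) :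
    ip2 Q f (∑ i ∈ S, g i) = ∑ i ∈ S, ip2 Q f (g i) := by
  classical
  induction S using Finset.induction with
  | empty => simp [ip2]
  | insert a S ha ih => rw [sum_insert ha, sum_insert ha, ip2_add_right, ih]

lemma eq_zero_of_ip2 (hQ : 1 ≤ Q) {f : J2 → ℝ} (hf : Supp Q f) (h : ip2 Q f f = 0) : f = 0 := by
  funext p
  by_cases hp : Out Q p
  · exact hf p hp
  have hnn : ∀ q ∈ I2 Q, 0 ≤ f q * f q / mu Q q := by
    intro q _
    by_cases hq : Out Q q
    · simp [hf q hq]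
    · exact div_nonneg (mul_self_nonneg _) (mu_pos hQ hq).le
  have h0 := (sum_eq_zero_iff_of_nonneg hnn).1 h p (mem_I2 hp)
  rcases div_eq_zero_iff.1 h0 with h1 | h1
  · exact mul_self_eq_zero.1 h1
  · exact absurd h1 (mu_pos hQ hp).ne'

/-- Reindexing one slot by one step. -/
lemma shift (n : ℕ) (u c w F G : ℕ → ℝ) (hu : u 0 = 0) (hG : G n = 0)
    (h : ∀ s, s + 1 < n → u (s + 1) / w (s + 1) = c s / w s) :
    ∑ s ∈ range n, u s * F (s - 1) * G s / w s = ∑ s ∈ range n, F s * (c s * G (s + 1)) / w s := by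
  cases n with
  | zero => simp
  | succ m =>
      rw [sum_range_succ' (fun s => u s * F (s - 1) * G s / w s), hu,
        sum_range_succ (fun s => F s * (c s * G (s + 1)) / w s), hG]
      simp only [zero_mul, zero_div, mul_zero, add_zero]
      refine sum_congr rfl fun s hs => ?_
      have := h s (by rw [mem_range] at hs; omega)
      rw [Nat.add_sub_cancel]
      calc u (s + 1) * F s * G (s + 1) / w (s + 1)
          = F s * G (s + 1) * (u (s + 1) / w (s + 1)) := by ring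
        _ = _ := by rw [this]; ring

lemma uR_ratio (hQ : 1 ≤ Q) (s : ℕ) (hs : s + 1 < 2 * Q) :
    uR Q (s + 1) / pn Q (s + 1) = (s : ℝ) / pn Q s := by
  rcases s with _ | j
  · simp [uR]
  have h1 := pn_pos hQ (s := j + 1) (by omega) (by omega)
  have h2 := pn_pos hQ (s := j + 2) (by omega) hs
  rw [div_eq_div_iff h2.ne' h1.ne', pn_eq Q j hQ, pn_eq Q (j + 1) hQ, uR, if_pos (by omega),
    cP, cP]
  have h : ((2 * Q - 2).choose (j + 1) : ℝ) * ((j : ℝ) + 1)
      = ((2 * Q - 2).choose j : ℝ) * ((2 * Q - 2 - j : ℕ) : ℝ) := by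
    exact_mod_cast Nat.choose_succ_right_eq (2 * Q - 2) j
  rw [show 2 * Q - (j + 1 + 1) = 2 * Q - 2 - j by omega, pow_succ]
  push_cast
  have hQ0 : (Q : ℝ) ≠ 0 := Nat.cast_ne_zero.2 (by omega)
  field_simp
  linear_combination (-1) * h

lemma uO_ratio (hQ : 1 ≤ Q) (a : ℕ) (ha : a + 1 < Q + 1) :
    uO Q (a + 1) / cw Q (a + 1) = ((a : ℝ) + 1) / cw Q a := by
  rw [div_eq_div_iff (cw_pos hQ (by omega)).ne' (cw_pos hQ (by omega)).ne', cw_succ hQ, uO,
    if_pos (by omega), show Q + 1 - (a + 1) = Q - a by omega]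

/-- The two ladders are adjoint. -/
lemma ip2_up (hQ : 1 ≤ Q) (f : J2 → ℝ) {g : J2 → ℝ} (hg : Supp Q g) :
    ip2 Q (up2 Q f) g = ip2 Q f (lo2 g) := by
  have e1 : ∀ A B C G m : ℝ, (A + B + C) * G / m = A * G / m + B * G / m + C * G / m :=
    fun A B C G m => by ring
  have e2 : ∀ F A B C m : ℝ, F * (A + B + C) / m = F * A / m + F * B / m + F * C / m :=
    fun F A B C m => by ring
  simp only [ip2, I2, sum_product, up2, lo2, mu, e1, e2, sum_add_distrib]
  congr 1
  congr 1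
  · rw [sum_comm, sum_comm (s := range (2 * Q))]
    refine sum_congr rfl fun a _ => ?_
    rw [sum_comm, sum_comm (s := range (2 * Q))]
    refine sum_congr rfl fun b _ => ?_
    have h := shift (2 * Q) (uR Q) (fun s => (s : ℝ)) (pn Q)
      (fun s => f (s, a, b)) (fun s => g (s, a, b)) (by simp [uR])
      (hg _ (Or.inr (Or.inl le_rfl))) (fun s hs => uR_ratio hQ s hs)
    simpa only [← div_div, ← sum_div] using congrArg (fun z => z / cw Q a / cw Q b) h
  · refine sum_congr rfl fun s _ => ?_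
    conv_lhs => rw [sum_comm]
    conv_rhs => rw [sum_comm]
    refine sum_congr rfl fun b _ => ?_
    have h := shift (Q + 1) (uO Q) (fun a => (a : ℝ) + 1) (cw Q)
      (fun a => f (s, a, b)) (fun a => g (s, a, b)) (by simp [uO])
      (hg _ (Or.inr (Or.inr (Or.inl (Nat.lt_succ_self Q))))) (fun a ha => uO_ratio hQ a ha)
    have hd : ∀ X A B C : ℝ, X / (A * B * C) = X / B / A / C := fun X A B C => by ring
    simpa only [hd, ← sum_div] using congrArg (fun z => z / pn Q s / cw Q b) h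
  · refine sum_congr rfl fun s _ => sum_congr rfl fun a _ => ?_
    have h := shift (Q + 1) (uO Q) (fun b => (b : ℝ) + 1) (cw Q)
      (fun b => f (s, a, b)) (fun b => g (s, a, b)) (by simp [uO])
      (hg _ (Or.inr (Or.inr (Or.inr (Nat.lt_succ_self Q))))) (fun b hb => uO_ratio hQ b hb)
    have hd : ∀ X A B C : ℝ, X / (A * B * C) = X / C / A / B := fun X A B C => by ring
    simpa only [hd, ← sum_div] using congrArg (fun z => z / pn Q s / cw Q a) h

lemma supp_up (hQ : 1 ≤ Q) {f : J2 → ℝ} (hf : Supp Q f) : Supp Q (up2 Q f) := by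
  rintro ⟨s, a, b⟩ hp
  have h1 : uR Q s * f (s - 1, a, b) = 0 := by
    rcases hp with h | h | h
    · simp only at h; simp [uR, h]
    · simp only at h
      rw [uR]
      split_ifs
      · simp [show 2 * Q - s = 0 by omega]
      · simp
    · rw [hf (s - 1, a, b) (Or.inr (Or.inr h)), mul_zero]
  have h2 : uO Q a * f (s, a - 1, b) = 0 := by
    rcases hp with h | h | h | h
    · rw [hf (s, a - 1, b) (Or.inl h), mul_zero]
    · rw [hf (s, a - 1, b) (Or.inr (Or.inl h)), mul_zero]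
    · simp only at h
      rw [uO, if_pos (by omega), show Q + 1 - a = 0 by omega]
      simp
    · rw [hf (s, a - 1, b) (Or.inr (Or.inr (Or.inr h))), mul_zero]
  have h3 : uO Q b * f (s, a, b - 1) = 0 := by
    rcases hp with h | h | h | h
    · rw [hf (s, a, b - 1) (Or.inl h), mul_zero]
    · rw [hf (s, a, b - 1) (Or.inr (Or.inl h)), mul_zero]
    · rw [hf (s, a, b - 1) (Or.inr (Or.inr (Or.inl h))), mul_zero]
    · simp only at h
      rw [uO, if_pos (by omega), show Q + 1 - b = 0 by omega]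
      simp
  simp [up2, h1, h2, h3]

lemma homog_up {g : ℕ} {f : J2 → ℝ} (hf : Homog g f) : Homog (g + 1) (up2 Q f) := by
  rintro ⟨s, a, b⟩ hp
  simp only [grade2] at hp
  have h1 : uR Q s * f (s - 1, a, b) = 0 := by
    by_cases hs : 2 ≤ s
    · rw [hf _ (by simp only [grade2]; omega), mul_zero]
    · simp [uR, hs]
  have h2 : uO Q a * f (s, a - 1, b) = 0 := by
    by_cases ha : 1 ≤ a
    · rw [hf _ (by simp only [grade2]; omega), mul_zero]
    · simp [uO, ha]
  have h3 : uO Q b * f (s, a, b - 1) = 0 := by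
    by_cases hb : 1 ≤ b
    · rw [hf _ (by simp only [grade2]; omega), mul_zero]
    · simp [uO, hb]
  simp [up2, h1, h2, h3]

lemma up2_smul (c : ℝ) (f : J2 → ℝ) : up2 Q (c • f) = c • up2 Q f := by
  funext p; simp only [up2, Pi.smul_apply, smul_eq_mul]; ring

lemma up2_sum {ι : Type*} (S : Finset ι) (f : ι → J2 → ℝ) :
    up2 Q (∑ i ∈ S, f i) = ∑ i ∈ S, up2 Q (f i) := by
  funext p
  simp only [up2, Finset.sum_apply, mul_sum, sum_add_distrib]

/-- The commutator of the ladders is the weight. -/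
lemma lo_up {f : J2 → ℝ} (hf : Supp Q f) (p : J2) :
    lo2 (up2 Q f) p = up2 Q (lo2 f) p + ((4 * (Q : ℝ) - 2 * grade2 p) / Q) * f p := by
  obtain ⟨s, a, b⟩ := p
  have cast_pred : ∀ c : ℕ, ∀ X : ℝ, uO Q c * (((c - 1 : ℕ) : ℝ) + 1) * X = uO Q c * c * X := by
    intro c X
    rcases c with _ | d
    · simp [uO]
    · simp
  have idx : ∀ c : ℕ, ∀ X : ℕ → ℝ, uO Q c * X (c - 1 + 1) = uO Q c * X c := by
    intro c X
    rcases c with _ | d
    · simp [uO]
    · simp
  have idxR : ∀ X : ℕ → ℝ, uR Q s * X (s - 1 + 1) = uR Q s * X s := by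
    intro X
    by_cases hs : 2 ≤ s
    · rw [show s - 1 + 1 = s by omega]
    · simp [uR, hs]
  have hdiag : ((s : ℝ) * uR Q (s + 1) - uR Q s * ((s - 1 : ℕ) : ℝ)
      + (((a : ℝ) + 1) * uO Q (a + 1) - uO Q a * (a : ℝ))
      + (((b : ℝ) + 1) * uO Q (b + 1) - uO Q b * (b : ℝ))) * f (s, a, b)
      = ((4 * (Q : ℝ) - 2 * grade2 (s, a, b)) / Q) * f (s, a, b) := by
    by_cases ho : Out Q (s, a, b)
    · simp [hf _ ho]
    simp only [Out, not_or, not_le, not_lt] at ho
    have hO : ∀ c ≤ Q, ((c : ℝ) + 1) * uO Q (c + 1) - uO Q c * (c : ℝ)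
        = ((Q : ℝ) - 2 * c) / Q := by
      intro c hc
      rw [uO, uO, if_pos (by omega), show Q + 1 - (c + 1) = Q - c by omega, Nat.cast_sub hc]
      rcases c with _ | d
      · simp
      · rw [if_pos (by omega), Nat.cast_sub (by omega)]
        push_cast
        ring
    have hR : (s : ℝ) * uR Q (s + 1) - uR Q s * ((s - 1 : ℕ) : ℝ)
        = (2 * (Q : ℝ) - 2 * s) / Q := by
      rw [uR, uR, if_pos (by omega), Nat.cast_sub (show s + 1 ≤ 2 * Q by omega),
        Nat.cast_sub (show 1 ≤ s by omega)]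
      split_ifs with h
      · rw [Nat.cast_sub (show s ≤ 2 * Q by omega)]
        push_cast
        ring
      · rw [show s = 1 by omega]
        push_cast
        ring
    rw [hR, hO a ho.2.2.1, hO b ho.2.2.2, grade2]
    push_cast
    ring
  simp only [lo2, up2, Nat.add_sub_cancel]
  have e1 := idxR fun t => ((s - 1 : ℕ) : ℝ) * f (t, a, b)
  have e2 := cast_pred a (f (s, a - 1 + 1, b))
  have e3 := idx a fun c => (a : ℝ) * f (s, c, b)
  have e4 := cast_pred b (f (s, a, b - 1 + 1))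
  have e5 := idx b fun c => (b : ℝ) * f (s, a, c)
  linear_combination hdiag - e1 - e2 - e3 - e4 - e5

lemma lo_up_homog {g : ℕ} {f : J2 → ℝ} (hf : Supp Q f) (hh : Homog g f) :
    lo2 (up2 Q f) = up2 Q (lo2 f) + ((4 * (Q : ℝ) - 2 * g) / Q) • f := by
  funext p
  rw [lo_up hf, Pi.add_apply, Pi.smul_apply, smul_eq_mul]
  by_cases hp : grade2 p = g
  · rw [hp]
  · simp [hh p hp]

end Vale.Agent.P359.Mom.Two
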